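import Vale.Agent.P200.Mono

/-!
# Koszul homology in three variables
-/

namespace Vale.Agent.P200.Lpp

open MvPolynomial Module

noncomputable section

variable {K : Type} [Field K]

/-- Forms of degree `j - k`, and zero if `j < k`. -/
def sh (K : Type) [Field K] (j k : ℕ) : Submodule K (Poly K 3) :=
  if k ≤ j then Forms K 3 (j - k) else ⊥

/-- The members of `I` of degree `j - k`. -/
def shI (I : Ideal (Poly K 3)) (j k : ℕ) : Submodule K (Poly K 3) :=
  I.restrictScalars K ⊓ sh K j k

/-- Three copies of a space of polynomials. -/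
def tri (V : Submodule K (Poly K 3)) : Submodule K (Fin 3 → Poly K 3) :=
  Submodule.pi Set.univ fun _ => V

/-- The first Koszul map. -/
def d1 (K : Type) [Field K] : (Fin 3 → Poly K 3) →ₗ[K] Poly K 3 :=
  ∑ i, (mulL (X i)).comp (LinearMap.proj i)

/-- Multiply one entry of a triple by a variable. -/
def mulEntry (K : Type) [Field K] (i l : Fin 3) : (Fin 3 → Poly K 3) →ₗ[K] Poly K 3 :=
  (mulL (X i)).comp (LinearMap.proj l)

/-- The second Koszul map, the cross product with the variables. -/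
def d2 (K : Type) [Field K] : (Fin 3 → Poly K 3) →ₗ[K] (Fin 3 → Poly K 3) :=
  LinearMap.pi fun i => mulEntry K (i + 1) (i + 2) - mulEntry K (i + 2) (i + 1)

/-- The third Koszul map. -/
def d3 (K : Type) [Field K] : Poly K 3 →ₗ[K] (Fin 3 → Poly K 3) :=
  LinearMap.pi fun i => mulL (X i)

/-- Dimension of a space of polynomials. -/
def dimP (V : Submodule K (Poly K 3)) : ℕ := finrank K V

/-- Dimension of a space of triples. -/
def dimT (V : Submodule K ((Fin 3 → Poly K 3))) : ℕ := finrank K V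

/-- Degree-`j` boundaries at the start of the Koszul complex of the quotient by `I`. -/
def bd0 (I : Ideal (Poly K 3)) (j : ℕ) : Submodule K (Poly K 3) :=
  shI I j 0 ⊔ (tri (sh K j 1)).map (d1 K)

/-- Degree-`j` cycles at the first step. -/
def cyc1 (I : Ideal (Poly K 3)) (j : ℕ) : Submodule K ((Fin 3 → Poly K 3)) :=
  tri (sh K j 1) ⊓ (I.restrictScalars K).comap (d1 K)

/-- Degree-`j` boundaries at the first step. -/
def bd1 (I : Ideal (Poly K 3)) (j : ℕ) : Submodule K ((Fin 3 → Poly K 3)) :=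
  tri (shI I j 1) ⊔ (tri (sh K j 2)).map (d2 K)

/-- Degree-`j` cycles at the second step. -/
def cyc2 (I : Ideal (Poly K 3)) (j : ℕ) : Submodule K ((Fin 3 → Poly K 3)) :=
  tri (sh K j 2) ⊓ (tri (I.restrictScalars K)).comap (d2 K)

/-- Degree-`j` boundaries at the second step. -/
def bd2 (I : Ideal (Poly K 3)) (j : ℕ) : Submodule K ((Fin 3 → Poly K 3)) :=
  tri (shI I j 2) ⊔ (sh K j 3).map (d3 K)

/-- Degree-`j` cycles at the third step. -/
def cyc3 (I : Ideal (Poly K 3)) (j : ℕ) : Submodule K (Poly K 3) :=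
  sh K j 3 ⊓ (tri (I.restrictScalars K)).comap (d3 K)

/-- The graded Betti numbers of the quotient by `I`, as dimensions of Koszul homology: cycles
minus boundaries, both counted among polynomials. -/
def betti (I : Ideal (Poly K 3)) : ℕ → ℕ → ℕ
  | 0, j => dimP (sh K j 0) - dimP (bd0 I j)
  | 1, j => dimT (cyc1 I j) - dimT (bd1 I j)
  | 2, j => dimT (cyc2 I j) - dimT (bd2 I j)
  | 3, j => dimP (cyc3 I j) - dimP (shI I j 3)
  | _ + 4, _ => 0

theorem mem_tri {V : Submodule K (Poly K 3)} {v : Fin 3 → Poly K 3} :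
    v ∈ tri V ↔ ∀ i, v i ∈ V := by
  simp [tri, Submodule.mem_pi]

theorem d1_apply (v : Fin 3 → Poly K 3) : d1 K v = X 0 * v 0 + X 1 * v 1 + X 2 * v 2 := by
  simp [d1, Fin.sum_univ_three]

theorem d2_apply (v : Fin 3 → Poly K 3) :
    d2 K v = ![X 1 * v 2 - X 2 * v 1, X 2 * v 0 - X 0 * v 2, X 0 * v 1 - X 1 * v 0] := by
  funext i
  fin_cases i <;> simp [d2, mulEntry]

theorem d3_apply (h : Poly K 3) (i : Fin 3) : d3 K h i = X i * h := by simp [d3]

theorem sh_le_forms (j k : ℕ) : sh K j k ≤ Forms K 3 (j - k) := by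
  unfold sh; split_ifs
  · exact le_rfl
  · exact bot_le

instance (j k : ℕ) : FiniteDimensional K (sh K j k) :=
  Submodule.finiteDimensional_of_le (sh_le_forms j k)

instance (I : Ideal (Poly K 3)) (j k : ℕ) : FiniteDimensional K (shI I j k) :=
  Submodule.finiteDimensional_of_le (inf_le_right : shI I j k ≤ sh K j k)

/-- Three copies as a space of functions. -/
def triEquiv (V : Submodule K (Poly K 3)) : tri V ≃ₗ[K] Fin 3 → V where
  toFun v i := ⟨v.1 i, mem_tri.mp v.2 i⟩
  map_add' _ _ := rfl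
  map_smul' _ _ := rfl
  invFun g := ⟨fun i => g i, mem_tri.mpr fun i => (g i).2⟩
  left_inv _ := rfl
  right_inv _ := rfl

instance (V : Submodule K (Poly K 3)) [FiniteDimensional K V] : FiniteDimensional K (tri V) :=
  Module.Finite.equiv (triEquiv V).symm

theorem finrank_tri (V : Submodule K (Poly K 3)) [FiniteDimensional K V] :
    finrank K (tri V) = 3 * finrank K V := by
  rw [(triEquiv V).finrank_eq, Module.finrank_pi_fintype]
  simp

theorem tri_mono {V W : Submodule K (Poly K 3)} (h : V ≤ W) : tri V ≤ tri W :=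
  fun _ hv => mem_tri.mpr fun i => h (mem_tri.mp hv i)

section rank

variable {M N : Type*} [AddCommGroup M] [Module K M] [AddCommGroup N] [Module K N]

theorem finrank_ker_inf (f : M →ₗ[K] N) (A : Submodule K M) [FiniteDimensional K A] :
    finrank K (A.map f) + finrank K (A ⊓ LinearMap.ker f : Submodule K M) = finrank K A := by
  have h := LinearMap.finrank_range_add_finrank_ker (f.domRestrict A)
  rw [LinearMap.range_domRestrict, LinearMap.ker_domRestrict] at h
  have e := (Submodule.equivMapOfInjective A.subtype A.injective_subtype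
    (Submodule.comap A.subtype (LinearMap.ker f))).finrank_eq
  rw [Submodule.map_comap_subtype] at e
  omega

/-- Rank of a sum with an image. -/
theorem finrank_sup_map (f : M →ₗ[K] N) (A : Submodule K M) [FiniteDimensional K A]
    (U : Submodule K N) [FiniteDimensional K U] :
    finrank K (U ⊔ A.map f : Submodule K N) + finrank K (A ⊓ U.comap f : Submodule K M) =
      finrank K A + finrank K U := by
  haveI : FiniteDimensional K (A ⊓ U.comap f : Submodule K M) :=
    Submodule.finiteDimensional_of_le inf_le_left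
  have h1 := finrank_ker_inf f A
  have h2 := finrank_ker_inf f (A ⊓ U.comap f)
  have e1 : (A ⊓ U.comap f).map f = U ⊓ A.map f := by
    apply le_antisymm
    · rintro _ ⟨x, hx, rfl⟩
      exact ⟨hx.2, x, hx.1, rfl⟩
    · rintro _ ⟨hU, x, hx, rfl⟩
      exact ⟨x, ⟨hx, hU⟩, rfl⟩
  have e2 : A ⊓ U.comap f ⊓ LinearMap.ker f = A ⊓ LinearMap.ker f := by
    refine le_antisymm (inf_le_inf_right _ inf_le_left) fun x hx => ⟨⟨hx.1, ?_⟩, hx.2⟩
    show f x ∈ U
    rw [LinearMap.mem_ker.mp hx.2]
    exact zero_mem _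
  rw [e1, e2] at h2
  have h3 := Submodule.finrank_sup_add_finrank_inf_eq U (A.map f)
  omega

end rank

theorem mem_sh {j k : ℕ} {p : Poly K 3} (h : k ≤ j) : p ∈ sh K j k ↔ p.IsHomogeneous (j - k) := by
  simp [sh, h]

theorem mul_X_mem_sh {j k : ℕ} {p : Poly K 3} (hp : p ∈ sh K j (k + 1)) (i : Fin 3) :
    X i * p ∈ sh K j k := by
  by_cases h : k + 1 ≤ j
  · rw [mem_sh h] at hp
    rw [mem_sh (show k ≤ j by omega)]
    have := (isHomogeneous_X K i).mul hp
    rwa [show 1 + (j - (k + 1)) = j - k by omega] at this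
  · simp only [sh, h, if_false, Submodule.mem_bot] at hp
    rw [hp, mul_zero]
    exact zero_mem _

theorem map_d1_le (j : ℕ) : (tri (sh K j 1)).map (d1 K) ≤ sh K j 0 := by
  rintro _ ⟨v, hv, rfl⟩
  rw [d1_apply]
  have h := fun i => mul_X_mem_sh (mem_tri.mp hv i) i
  exact add_mem (add_mem (h 0) (h 1)) (h 2)

theorem map_d2_le (j : ℕ) : (tri (sh K j 2)).map (d2 K) ≤ tri (sh K j 1) := by
  rintro _ ⟨v, hv, rfl⟩
  rw [mem_tri, d2_apply]
  have h := fun i l => mul_X_mem_sh (mem_tri.mp hv i) l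
  intro i
  fin_cases i
  · exact sub_mem (h 2 1) (h 1 2)
  · exact sub_mem (h 0 2) (h 2 0)
  · exact sub_mem (h 1 0) (h 0 1)

theorem map_d3_le (j : ℕ) : (sh K j 3).map (d3 K) ≤ tri (sh K j 2) := by
  rintro _ ⟨v, hv, rfl⟩
  rw [mem_tri]
  intro i
  rw [d3_apply]
  exact mul_X_mem_sh hv i

variable (I : Ideal (Poly K 3))

theorem boundary1_le (j : ℕ) :
    tri (shI I j 1) ⊔ (tri (sh K j 2)).map (d2 K) ≤
      tri (sh K j 1) ⊓ (I.restrictScalars K).comap (d1 K) := by
  refine sup_le (fun v hv => ⟨tri_mono inf_le_right hv, ?_⟩) ?_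
  · have h : ∀ i, v i ∈ I := fun i => (mem_tri.mp hv i).1
    show d1 K v ∈ I
    rw [d1_apply]
    exact add_mem (add_mem (I.mul_mem_left _ (h 0)) (I.mul_mem_left _ (h 1)))
      (I.mul_mem_left _ (h 2))
  · rintro _ ⟨v, hv, rfl⟩
    refine ⟨map_d2_le j ⟨v, hv, rfl⟩, ?_⟩
    show d1 K (d2 K v) ∈ I
    have e : d1 K (d2 K v) = 0 := by
      rw [d1_apply, d2_apply]
      simp
      ring
    rw [e]
    exact zero_mem _

theorem boundary2_le (j : ℕ) :
    tri (shI I j 2) ⊔ (sh K j 3).map (d3 K) ≤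
      tri (sh K j 2) ⊓ (tri (I.restrictScalars K)).comap (d2 K) := by
  refine sup_le (fun v hv => ⟨tri_mono inf_le_right hv, ?_⟩) ?_
  · have h : ∀ i, v i ∈ I := fun i => (mem_tri.mp hv i).1
    show d2 K v ∈ tri _
    rw [mem_tri, d2_apply]
    intro i
    fin_cases i <;>
      exact sub_mem (I.mul_mem_left _ (h _)) (I.mul_mem_left _ (h _))
  · rintro _ ⟨v, hv, rfl⟩
    refine ⟨map_d3_le j ⟨v, hv, rfl⟩, ?_⟩
    have e : d2 K (d3 K v) = 0 := by
      funext i
      rw [d2_apply]
      fin_cases i <;> simp [d3_apply] <;> ring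
    show d2 K (d3 K v) ∈ tri _
    rw [e]
    exact zero_mem _

theorem betti_eq (j : ℕ) :
    betti I 0 j = finrank K (sh K j 0) -
      finrank K ((shI I j 0 ⊔ (tri (sh K j 1)).map (d1 K) : Submodule K _)) ∧
    betti I 1 j =
      finrank K ((tri (sh K j 1) ⊓ (I.restrictScalars K).comap (d1 K) : Submodule K _)) -
      finrank K ((tri (shI I j 1) ⊔ (tri (sh K j 2)).map (d2 K) : Submodule K _)) ∧
    betti I 2 j = finrank K
        ((tri (sh K j 2) ⊓ (tri (I.restrictScalars K)).comap (d2 K) : Submodule K _)) -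
      finrank K ((tri (shI I j 2) ⊔ (sh K j 3).map (d3 K) : Submodule K _)) ∧
    betti I 3 j =
      finrank K ((sh K j 3 ⊓ (tri (I.restrictScalars K)).comap (d3 K) : Submodule K _)) -
      finrank K (shI I j 3) :=
  ⟨rfl, rfl, rfl, rfl⟩

/-- The Euler characteristic of the Koszul complex. -/
theorem euler (j : ℕ) :
    betti I 0 j + betti I 2 j + finrank K (shI I j 0) + 3 * finrank K (sh K j 1) +
        3 * finrank K (shI I j 2) + finrank K (sh K j 3) =
      betti I 1 j + betti I 3 j + finrank K (sh K j 0) + 3 * finrank K (shI I j 1) +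
        3 * finrank K (sh K j 2) + finrank K (shI I j 3) := by
  have r0 := finrank_sup_map (d1 K) (tri (sh K j 1)) (shI I j 0)
  have e0 : tri (sh K j 1) ⊓ (shI I j 0).comap (d1 K) =
      tri (sh K j 1) ⊓ (I.restrictScalars K).comap (d1 K) :=
    le_antisymm (inf_le_inf_left _ (Submodule.comap_mono inf_le_left))
      fun v hv => ⟨hv.1, hv.2, map_d1_le j ⟨v, hv.1, rfl⟩⟩
  have r1 := finrank_sup_map (d2 K) (tri (sh K j 2)) (tri (shI I j 1))
  have e1 : tri (sh K j 2) ⊓ (tri (shI I j 1)).comap (d2 K) =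
      tri (sh K j 2) ⊓ (tri (I.restrictScalars K)).comap (d2 K) :=
    le_antisymm (inf_le_inf_left _ (Submodule.comap_mono (tri_mono inf_le_left)))
      fun v hv => ⟨hv.1, mem_tri.mpr fun i => ⟨mem_tri.mp hv.2 i,
        mem_tri.mp (map_d2_le j ⟨v, hv.1, rfl⟩) i⟩⟩
  have r2 := finrank_sup_map (d3 K) (sh K j 3) (tri (shI I j 2))
  have e2 : sh K j 3 ⊓ (tri (shI I j 2)).comap (d3 K) =
      sh K j 3 ⊓ (tri (I.restrictScalars K)).comap (d3 K) :=
    le_antisymm (inf_le_inf_left _ (Submodule.comap_mono (tri_mono inf_le_left)))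
      fun v hv => ⟨hv.1, mem_tri.mpr fun i => ⟨mem_tri.mp hv.2 i,
        mem_tri.mp (map_d3_le j ⟨v, hv.1, rfl⟩) i⟩⟩
  rw [e0] at r0
  rw [e1] at r1
  rw [e2] at r2
  simp only [finrank_tri] at r0 r1 r2
  haveI : FiniteDimensional K
      (tri (sh K j 1) ⊓ (I.restrictScalars K).comap (d1 K) : Submodule K _) :=
    Submodule.finiteDimensional_of_le inf_le_left
  haveI : FiniteDimensional K
      (tri (sh K j 2) ⊓ (tri (I.restrictScalars K)).comap (d2 K) : Submodule K _) :=
    Submodule.finiteDimensional_of_le inf_le_left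
  haveI : FiniteDimensional K
      (sh K j 3 ⊓ (tri (I.restrictScalars K)).comap (d3 K) : Submodule K _) :=
    Submodule.finiteDimensional_of_le inf_le_left
  have b0 := Submodule.finrank_mono
    (show shI I j 0 ⊔ (tri (sh K j 1)).map (d1 K) ≤ sh K j 0 from
      sup_le inf_le_right (map_d1_le j))
  have b1 := Submodule.finrank_mono (boundary1_le I j)
  have b2 := Submodule.finrank_mono (boundary2_le I j)
  have b3 := Submodule.finrank_mono
    (show shI I j 3 ≤ sh K j 3 ⊓ (tri (I.restrictScalars K)).comap (d3 K) from fun v hv =>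
      ⟨hv.2, mem_tri.mpr fun i => by rw [d3_apply]; exact I.mul_mem_left _ hv.1⟩)
  obtain ⟨q0, q1, q2, q3⟩ := betti_eq I j
  rw [q0, q1, q2, q3]
  omega

/-- Setting the variable `i` to zero. -/
def kill (i : Fin 3) : Poly K 3 →ₐ[K] Poly K 3 := aeval (Function.update X i 0)

theorem kill_sub_mem (i : Fin 3) (p : Poly K 3) :
    p - kill i p ∈ Ideal.span {(X i : Poly K 3)} := by
  have h : (Ideal.Quotient.mkₐ K (Ideal.span {(X i : Poly K 3)})).comp (kill i) =
      Ideal.Quotient.mkₐ K (Ideal.span {(X i : Poly K 3)}) := by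
    refine MvPolynomial.algHom_ext fun l => ?_
    simp only [AlgHom.comp_apply, Ideal.Quotient.mkₐ_eq_mk, kill, aeval_X]
    rw [Ideal.Quotient.mk_eq_mk_iff_sub_mem]
    rcases eq_or_ne l i with rfl | hl
    · simp [Ideal.mem_span_singleton_self]
    · simp [hl]
  exact Ideal.Quotient.eq.mp (DFunLike.congr_fun h p).symm

theorem kill_X (i l : Fin 3) : kill i (X l : Poly K 3) = if l = i then 0 else X l := by
  simp [kill, Function.update_apply]

theorem exists_mul_kill (i : Fin 3) (p : Poly K 3) : ∃ q, p = kill i p + X i * q := by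
  obtain ⟨q, hq⟩ := Ideal.mem_span_singleton.mp (kill_sub_mem i p)
  exact ⟨q, by rw [← hq]; ring⟩

/-- The Koszul complex of the variables is exact at the first step. -/
theorem exists_d2 {v : Fin 3 → Poly K 3} (h : d1 K v = 0) : ∃ w, d2 K w = v := by
  rw [d1_apply] at h
  obtain ⟨q1, hq1⟩ := exists_mul_kill 0 (v 1)
  obtain ⟨q2, hq2⟩ := exists_mul_kill 0 (v 2)
  set r1 := kill 0 (v 1)
  set r2 := kill 0 (v 2)
  have h0 : X 1 * r1 + X 2 * r2 = 0 := by
    simpa [kill_X, r1, r2] using congrArg (kill (0 : Fin 3)) h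
  obtain ⟨u, hu⟩ := exists_mul_kill 2 r1
  have h2 : kill 2 r1 = 0 := by
    have := congrArg (kill (2 : Fin 3)) h0
    simpa [kill_X] using this
  rw [h2, zero_add] at hu
  have hr2 : r2 = -(X 1 * u) := by
    refine mul_left_cancel₀ (X_ne_zero (2 : Fin 3)) ?_
    rw [hu] at h0
    linear_combination h0
  have hv0 : v 0 = -(X 1 * q1) - X 2 * q2 := by
    refine mul_left_cancel₀ (X_ne_zero (0 : Fin 3)) ?_
    rw [hq1, hq2] at h
    linear_combination h - h0
  refine ⟨![u, q2, -q1], ?_⟩
  funext i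
  rw [d2_apply]
  fin_cases i
  · simp [hv0]; try ring
  · simp [hq1, hu]; try ring
  · simp [hq2, hr2]; try ring

theorem component_d2 (m : ℕ) (w : Fin 3 → Poly K 3) (i : Fin 3) :
    homogeneousComponent (m + 1) (d2 K w i) =
      d2 K (fun l => homogeneousComponent m (w l)) i := by
  rw [d2_apply, d2_apply]
  fin_cases i <;> simp [component_mul (isHomogeneous_X K _)]

/-- Exactness in each degree. -/
theorem ker_d1_le {j : ℕ} (hj : 1 ≤ j) :
    tri (sh K j 1) ⊓ LinearMap.ker (d1 K) ≤ (tri (sh K j 2)).map (d2 K) := by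
  rintro v ⟨hv, hker⟩
  obtain ⟨w, rfl⟩ := exists_d2 (LinearMap.mem_ker.mp hker)
  have hh : ∀ i, (d2 K w i).IsHomogeneous (j - 1) := fun i =>
    (mem_sh hj).mp (mem_tri.mp hv i)
  rcases (show j = 1 ∨ 2 ≤ j by omega) with rfl | hj'
  · refine ⟨0, zero_mem _, ?_⟩
    rw [map_zero]
    funext i
    have h1 : homogeneousComponent 0 (d2 K w i) = 0 := by
      have hX : ∀ (l : Fin 3) (q : Poly K 3), homogeneousComponent 0 (X l * q) = 0 := fun l q =>
        component_mul_lt (isHomogeneous_X K l) q one_pos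
      rw [d2_apply]
      fin_cases i <;> simp [hX, -homogeneousComponent_zero]
    have h2 := component_self (hh i)
    simp only [Nat.sub_self] at h2
    rw [Pi.zero_apply, ← h2, h1]
  · refine ⟨fun l => homogeneousComponent (j - 2) (w l), mem_tri.mpr fun l => ?_, ?_⟩
    · exact (mem_sh hj').mpr (homogeneousComponent_isHomogeneous _ _)
    · funext i
      rw [← component_d2, show j - 2 + 1 = j - 1 by omega, component_self (hh i)]

theorem map_d1_eq {j : ℕ} (hj : 1 ≤ j) : (tri (sh K j 1)).map (d1 K) = sh K j 0 := by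
  refine le_antisymm (map_d1_le j) fun p hp => ?_
  rw [mem_sh (Nat.zero_le _), Nat.sub_zero] at hp
  obtain ⟨q, hq⟩ : ∃ q : Fin 3 → Poly K 3, d1 K q = p := by
    obtain ⟨q0, h0⟩ := exists_mul_kill 0 p
    obtain ⟨q1, h1⟩ := exists_mul_kill 1 (kill 0 p)
    obtain ⟨q2, h2⟩ := exists_mul_kill 2 (kill 1 (kill 0 p))
    have hall : (kill (2 : Fin 3)).comp ((kill 1).comp (kill 0)) =
        aeval (fun _ : Fin 3 => (0 : Poly K 3)) := by
      refine MvPolynomial.algHom_ext fun l => ?_
      fin_cases l <;> simp [kill_X]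
    have hz : kill 2 (kill 1 (kill 0 p)) = 0 := by
      have := DFunLike.congr_fun hall p
      simp only [AlgHom.comp_apply] at this
      rw [this, aeval_zero', constantCoeff_eq,
        hp.coeff_eq_zero (d := 0) (by simp only [map_zero]; omega), map_zero]
    rw [hz, zero_add] at h2
    refine ⟨![q0, q1, q2], ?_⟩
    rw [d1_apply]
    simp only [Matrix.cons_val_zero, Matrix.cons_val_one, Matrix.cons_val_two, Matrix.tail_cons,
      Matrix.head_cons]
    linear_combination -h0 - h1 - h2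
  refine ⟨fun l => homogeneousComponent (j - 1) (q l), mem_tri.mpr fun l =>
    (mem_sh hj).mpr (homogeneousComponent_isHomogeneous _ _), ?_⟩
  rw [← component_self hp, ← hq, d1_apply, d1_apply, map_add, map_add]
  obtain ⟨j, rfl⟩ : ∃ i, j = i + 1 := ⟨j - 1, by omega⟩
  simp [component_mul (isHomogeneous_X K _)]

/-- The first Betti number counts minimal generators. -/
theorem betti_one {j : ℕ} (hj : 1 ≤ j) :
    betti I 1 j + finrank K ((tri (shI I j 1)).map (d1 K)) = finrank K (shI I j 0) := by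
  set A := tri (sh K j 1)
  set B := tri (shI I j 1) ⊔ (tri (sh K j 2)).map (d2 K)
  have hker : A ⊓ LinearMap.ker (d1 K) ≤ B := (ker_d1_le hj).trans le_sup_right
  have hBA : B ≤ A := (boundary1_le I j).trans inf_le_left
  haveI : FiniteDimensional K B := Submodule.finiteDimensional_of_le hBA
  have hB := finrank_ker_inf (d1 K) B
  have hA := finrank_ker_inf (d1 K) A
  have eK : B ⊓ LinearMap.ker (d1 K) = A ⊓ LinearMap.ker (d1 K) :=
    le_antisymm (inf_le_inf_right _ hBA) fun v hv => ⟨hker hv, hv.2⟩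
  have eW : B.map (d1 K) = (tri (shI I j 1)).map (d1 K) := by
    rw [Submodule.map_sup, sup_eq_left]
    rintro _ ⟨_, ⟨w, -, rfl⟩, rfl⟩
    have e : d1 K (d2 K w) = 0 := by
      rw [d1_apply, d2_apply]
      simp
      ring
    rw [e]
    exact zero_mem _
  have r0 := finrank_sup_map (d1 K) A (shI I j 0)
  have e0 : A ⊓ (shI I j 0).comap (d1 K) = A ⊓ (I.restrictScalars K).comap (d1 K) :=
    le_antisymm (inf_le_inf_left _ (Submodule.comap_mono inf_le_left))
      fun v hv => ⟨hv.1, hv.2, map_d1_le j ⟨v, hv.1, rfl⟩⟩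
  have e2 : shI I j 0 ⊔ A.map (d1 K) = sh K j 0 := by
    rw [map_d1_eq hj, sup_eq_right]
    exact inf_le_right
  rw [e0, e2] at r0
  rw [map_d1_eq hj] at hA
  rw [eK, eW] at hB
  haveI : FiniteDimensional K (A ⊓ (I.restrictScalars K).comap (d1 K) : Submodule K _) :=
    Submodule.finiteDimensional_of_le inf_le_left
  have b1 : finrank K B ≤
      finrank K (A ⊓ (I.restrictScalars K).comap (d1 K) : Submodule K _) :=
    Submodule.finrank_mono (boundary1_le I j)
  rw [show betti I 1 j = finrank K (A ⊓ (I.restrictScalars K).comap (d1 K) : Submodule K _) -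
    finrank K B from rfl]
  omega

end

end Vale.Agent.P200.Lpp
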