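import Vale.Agent.P200.Lpp.Pad
import Vale.Agent.P200.Lpp.Koszul

/-!
# Generators and socle against the segment ideal
-/

namespace Vale.Agent.P200.Lpp

open MvPolynomial Module Finset Vale.Agent.P200.Chain

open scoped Classical

noncomputable section

variable {K : Type} [Field K] {c : ℕ}

/-- A padding degree that is large for the degree `d`. -/
def big (a : Fin c → ℕ) (d : ℕ) : ℕ := d + 2 + ∑ i, a i

theorem lt_big (a : Fin c → ℕ) (d : ℕ) : d + 1 < big a d := by unfold big; omega

theorem le_big (a : Fin c → ℕ) (d : ℕ) (i : Fin c) : a i ≤ big a d := by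
  have := single_le_sum (fun l _ => Nat.zero_le (a l)) (mem_univ i)
  unfold big; omega

/-- The data: at most three forms in an ideal of three variables. -/
structure Setup (K : Type) [Field K] (c : ℕ) where
  /-- the degrees -/
  a : Fin c → ℕ
  /-- the forms -/
  f : Fin c → GForm K 3
  /-- the ideal -/
  I : Ideal (Poly K 3)
  hc : c ≤ 3
  two : ∀ i, 2 ≤ a i
  mono : Monotone a
  hk : ∀ i, (f i).k = a i
  reg : RegL ⊥ (List.ofFn f)
  homog : Homog I
  mem : ∀ i, (f i).g ∈ I

variable (D : Setup K c)

/-- The complement of the pure powers in one degree. -/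
def Setup.B (d : ℕ) : Finset (Fin 3 → ℕ) := Box (pad D.a (big D.a d)) d

/-- The rank in that complement. -/
def Setup.rk (d : ℕ) (e : Fin 3 → ℕ) : ℕ := lrk (pad D.a (big D.a d)) d e

/-- The exponents of the lex-plus-powers ideal. -/
def Setup.S : Set (Fin 3 →₀ ℕ) :=
  {e | OutP D.a ⇑e → hq D.I e.degree ≤ D.rk e.degree ⇑e}

theorem Setup.box_eq {N d : ℕ} (hN : d < N) : Box (pad D.a N) d = D.B d :=
  box_pad_congr D.hc hN (by have := lt_big D.a d; omega)

theorem Setup.mem_B {d : ℕ} {e : Fin 3 → ℕ} : e ∈ D.B d ↔ OutP D.a e ∧ ∑ i, e i = d :=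
  mem_box_pad D.hc (by have := lt_big D.a d; omega)

theorem Setup.step (d : ℕ) :
    Step (pad D.a (big D.a d)) d (hq D.I d) (hq D.I (d + 1)) ∧ hq D.I d ≤ (D.B d).card :=
  step_pad D.hc D.two D.mono (by have := lt_big D.a d; omega) (le_big D.a d) D.f D.hk D.reg
    D.homog D.mem (lt_big D.a d)

theorem Setup.upper : IsUpperSet D.S := by
  have key : ∀ (e : Fin 3 →₀ ℕ) (i : Fin 3), e ∈ D.S → e + Finsupp.single i (1 : ℕ) ∈ D.S := by
    intro e i he hout
    have hcoe : (⇑(e + Finsupp.single i (1 : ℕ)) : Fin 3 → ℕ) = ⇑e + Pi.single i 1 := by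
      rw [Finsupp.coe_add, Finsupp.single_eq_pi_single]
    rw [map_add, Finsupp.degree_single]
    have hout' : OutP D.a ⇑e := fun l h => lt_of_le_of_lt (by simp) (hout l h)
    have h1 : ⇑e ∈ D.B e.degree := D.mem_B.mpr ⟨hout', (degree_eq_sum_fun e).symm⟩
    have h2 : ⇑(e + Finsupp.single i (1 : ℕ)) ∈ D.B (e.degree + 1) := by
      refine D.mem_B.mpr ⟨hout, ?_⟩
      rw [← degree_eq_sum_fun, map_add, Finsupp.degree_single]
    rw [hcoe] at h2 ⊢
    rw [← D.box_eq (lt_big D.a e.degree)] at h2
    refine ((D.step e.degree).1 _ h1 i h2 (he hout')).trans_eq ?_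
    exact lrk_congr (D.box_eq (lt_big D.a e.degree)) _
  intro e e' hle he
  obtain ⟨g, rfl⟩ : ∃ g, e' = e + g := ⟨e' - e, (add_tsub_cancel_of_le hle).symm⟩
  clear hle
  induction g using Finsupp.induction generalizing e with
  | zero => simpa using he
  | single_add i b g hi hb ih =>
    rw [← add_assoc]
    refine ih ?_
    clear ih hb
    induction b with
    | zero => simpa using he
    | succ b ihb =>
      rw [Finsupp.single_add, ← add_assoc]
      exact key _ i ihb

/-- The lex-plus-powers ideal. -/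
def Setup.J : Ideal (Poly K 3) := monIdeal K D.S D.upper

theorem Setup.count (d h : ℕ) (hh : h ≤ (D.B d).card) :
    ((degSet 3 d).filter fun e : Fin 3 →₀ ℕ => ¬(OutP D.a ⇑e → h ≤ D.rk d ⇑e)).card = h := by
  refine Eq.trans ?_ (card_lrk_lt hh)
  have key : ∀ u : Fin 3 → ℕ,
      u ∈ (Box (pad D.a (big D.a d)) d).filter (fun u => lrk (pad D.a (big D.a d)) d u < h) ↔
        ∑ i, u i = d ∧
          ¬(OutP D.a ⇑(Finsupp.equivFunOnFinite.symm u : Fin 3 →₀ ℕ) →
            h ≤ D.rk d ⇑(Finsupp.equivFunOnFinite.symm u : Fin 3 →₀ ℕ)) := fun u => by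
    simp only [Finset.mem_filter]
    rw [show u ∈ Box (pad D.a (big D.a d)) d ↔ u ∈ D.B d from Iff.rfl, D.mem_B]
    simp only [Setup.rk, Classical.not_imp, not_le, Finsupp.coe_equivFunOnFinite_symm]
    tauto
  convert card_degSet_box (fun e : Fin 3 →₀ ℕ => ¬(OutP D.a ⇑e → h ≤ D.rk d ⇑e)) _ key

theorem Setup.hq_J (d : ℕ) : hq D.J d = hq D.I d := by
  rw [Setup.J, hq_monIdeal]
  refine Eq.trans ?_ (D.count d _ (D.step d).2)
  congr 1
  refine Finset.filter_congr fun e he => ?_
  rw [mem_degSet] at he
  subst he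
  rfl

theorem finrank_shI_congr {I J : Ideal (Poly K 3)} (h : ∀ d, hq I d = hq J d) (j k : ℕ) :
    finrank K (shI I j k) = finrank K (shI J j k) := by
  by_cases hk : k ≤ j
  · have e : ∀ A : Ideal (Poly K 3), shI A j k = part A (j - k) := fun A => by
      simp only [shI, sh, hk, if_true, part]
    rw [e, e]
    have := hq_add I (j - k)
    have := hq_add J (j - k)
    have := h (j - k)
    omega
  · have e : ∀ A : Ideal (Poly K 3), shI A j k = ⊥ := fun A => by
      simp only [shI, sh, hk, if_false, inf_bot_eq]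
    rw [e, e]

theorem shI_eq_part (A : Ideal (Poly K 3)) {j k : ℕ} (hk : k ≤ j) :
    shI A j k = part A (j - k) := by
  simp only [shI, sh, hk, if_true, part]

theorem tri_bot : tri (⊥ : Submodule K (Poly K 3)) = ⊥ := by
  ext v
  simp [mem_tri, funext_iff]

theorem betti_zero_congr {I J : Ideal (Poly K 3)} (h : ∀ d, hq I d = hq J d) (j : ℕ) :
    betti I 0 j = betti J 0 j := by
  simp only [betti_eq]
  rcases Nat.eq_zero_or_pos j with rfl | hj
  · have e : sh K 0 1 = ⊥ := by simp [sh]
    rw [e, tri_bot, Submodule.map_bot, sup_bot_eq, sup_bot_eq, finrank_shI_congr h]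
  · have e : ∀ A : Ideal (Poly K 3), shI A j 0 ⊔ (tri (sh K j 1)).map (d1 K) = sh K j 0 :=
      fun A => by rw [map_d1_eq hj, sup_eq_right]; exact inf_le_right
    rw [e, e]

theorem coe_add_single (e : Fin 3 →₀ ℕ) (i : Fin 3) :
    (⇑(e + Finsupp.single i (1 : ℕ)) : Fin 3 → ℕ) = ⇑e + Pi.single i 1 := by
  rw [Finsupp.coe_add, Finsupp.single_eq_pi_single]

/-- The socle is largest for the lex-plus-powers ideal. -/
theorem Setup.betti_three (j : ℕ) : betti D.I 3 j ≤ betti D.J 3 j := by
  by_cases hj : j < 3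
  · simp only [betti_eq]
    have : ∀ V : Submodule K (Poly K 3), finrank K (sh K j 3 ⊓ V : Submodule K _) = 0 := by
      intro V
      have e : sh K j 3 = ⊥ := by simp [sh, not_le.mpr hj]
      rw [e, bot_inf_eq, finrank_bot]
    rw [this]
    simp
  obtain ⟨d, rfl⟩ : ∃ d, j = d + 3 := ⟨j - 3, by omega⟩
  have hsh : sh K (d + 3) 3 = Forms K 3 d := by simp [sh]
  have hpart : ∀ A : Ideal (Poly K 3), shI A (d + 3) 3 = part A d := fun A => by
    rw [shI_eq_part A (by omega), show d + 3 - 3 = d by omega]
  simp only [betti_eq]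
  rw [hpart, hpart, hsh]
  set T := (Forms K 3 d ⊓ (tri (D.I.restrictScalars K)).comap (d3 K) : Submodule K _) with hT
  set T' := (Forms K 3 d ⊓ (tri (D.J.restrictScalars K)).comap (d3 K) : Submodule K _) with hT'
  haveI : FiniteDimensional K T := Submodule.finiteDimensional_of_le inf_le_left
  haveI : FiniteDimensional K T' := Submodule.finiteDimensional_of_le inf_le_left
  set I2 := D.I ⊔ Ideal.span (T : Set (Poly K 3)) with hI2
  have hI2h : Homog I2 :=
    D.homog.sup (Homog.span fun g hg => ⟨d, hg.1⟩)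
  have hTI : T ≤ part I2 d := fun p hp =>
    ⟨Submodule.mem_sup_right (Ideal.subset_span hp), hp.1⟩
  have hnext : part I2 (d + 1) ≤ part D.I (d + 1) := by
    rintro p ⟨hp, hpd⟩
    refine ⟨?_, hpd⟩
    obtain ⟨x, hx, y, hy, rfl⟩ := Submodule.mem_sup.mp hp
    rw [← component_self hpd, map_add]
    refine add_mem (D.homog x hx _) ?_
    obtain ⟨m, q, g, rfl⟩ := Submodule.mem_span_set'.mp hy
    rw [map_sum]
    refine Submodule.sum_mem _ fun l _ => ?_
    rw [smul_eq_mul, mul_comm, show d + 1 = 1 + d by omega, component_mul (g l).2.1]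
    have h1 : homogeneousComponent 1 (q l) ∈ sh K 1 0 :=
      (mem_sh (by omega)).mpr (homogeneousComponent_isHomogeneous 1 (q l))
    rw [← map_d1_eq le_rfl] at h1
    obtain ⟨v, -, hv⟩ := h1
    rw [← hv, d1_apply, mul_add, mul_add]
    have hx' : ∀ i : Fin 3, X i * (g l : Poly K 3) ∈ D.I := fun i => by
      have := mem_tri.mp (g l).2.2 i
      rw [d3_apply] at this
      exact this
    refine add_mem (add_mem ?_ ?_) ?_
    all_goals
      rw [← mul_assoc, mul_comm (g l : Poly K 3) (X _)]
      exact D.I.mul_mem_right _ (hx' _)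
  obtain ⟨hstep, hle2⟩ := step_pad D.hc D.two D.mono (by have := lt_big D.a d; omega)
    (le_big D.a d) D.f D.hk D.reg hI2h (fun i => Submodule.mem_sup_left (D.mem i)) (lt_big D.a d)
  have h1 : hq I2 d + finrank K T ≤ finrank K (Forms K 3 d) := by
    have := hq_add I2 d
    have := Submodule.finrank_mono hTI
    omega
  have h2 : hq D.I (d + 1) ≤ hq I2 (d + 1) := by
    have := hq_add I2 (d + 1)
    have := hq_add D.I (d + 1)
    have := Submodule.finrank_mono hnext
    omega
  set F := (degSet 3 d).filter fun e : Fin 3 →₀ ℕ => OutP D.a ⇑e → hq I2 d ≤ D.rk d ⇑e with hF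
  have hFT : restrictSupport K (F : Set (Fin 3 →₀ ℕ)) ≤ T' := by
    intro p hp
    rw [mem_restrictSupport_iff] at hp
    refine ⟨?_, mem_tri.mpr fun i => ?_⟩
    · show p ∈ Forms K 3 d
      rw [forms_eq_restrictSupport, mem_restrictSupport_iff]
      exact hp.trans (Finset.coe_subset.mpr (filter_subset _ _))
    · show d3 K p i ∈ D.J
      rw [d3_apply, Setup.J, mem_monIdeal, support_X_mul]
      intro u hu
      obtain ⟨e, he, rfl⟩ := Finset.mem_map.mp hu
      obtain ⟨hed, heF⟩ := mem_filter.mp (hp he)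
      rw [mem_degSet] at hed
      simp only [addLeftEmbedding_apply]
      rw [add_comm]
      intro hout
      have hdeg : (e + Finsupp.single i (1 : ℕ)).degree = d + 1 := by
        rw [map_add, Finsupp.degree_single, hed]
      have hout' : OutP D.a ⇑e := fun l h => lt_of_le_of_lt (by simp) (hout l h)
      rw [hdeg, coe_add_single]
      refine h2.trans ((hstep _ (D.mem_B.mpr ⟨hout', hed ▸ (degree_eq_sum_fun e).symm⟩) i ?_
        (heF hout')).trans_eq (lrk_congr (D.box_eq (lt_big D.a d)) _))
      rw [← coe_add_single, D.box_eq (lt_big D.a d), D.mem_B]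
      exact ⟨hout, by rw [← degree_eq_sum_fun, hdeg]⟩
  have hFc : F.card + hq I2 d = finrank K (Forms K 3 d) := by
    rw [forms_eq_restrictSupport, finrank_restrictSupport,
      ← card_filter_add_card_filter_not (s := degSet 3 d)
        (p := fun e : Fin 3 →₀ ℕ => OutP D.a ⇑e → hq I2 d ≤ D.rk d ⇑e), D.count d _ hle2]
  have hr : finrank K (Forms K 3 d) = (degSet 3 d).card := by
    rw [forms_eq_restrictSupport, finrank_restrictSupport]
  have h3 : finrank K (restrictSupport K (F : Set (Fin 3 →₀ ℕ))) ≤ finrank K T' :=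
    Submodule.finrank_mono hFT
  rw [finrank_restrictSupport] at h3
  have := hq_add D.I d
  have := hq_add D.J d
  have := D.hq_J d
  have h4 : part D.I d ≤ T := fun p hp =>
    ⟨hp.2, mem_tri.mpr fun i => by rw [d3_apply]; exact D.I.mul_mem_left _ hp.1⟩
  have h4' : finrank K (part D.I d) ≤ finrank K T := Submodule.finrank_mono h4
  omega

/-- The generators are most numerous for the lex-plus-powers ideal. -/
theorem Setup.betti_one_le (j : ℕ) : betti D.I 1 j ≤ betti D.J 1 j := by
  rcases Nat.eq_zero_or_pos j with rfl | hj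
  · have e : sh K 0 1 = ⊥ := by simp [sh]
    simp only [betti_eq]
    rw [e, tri_bot, bot_inf_eq, bot_inf_eq, finrank_bot]
    simp
  have eI := betti_one D.I hj
  have eJ := betti_one D.J hj
  have hIJ := finrank_shI_congr (fun d => D.hq_J d) j 0
  suffices hW : finrank K ((tri (shI D.J j 1)).map (d1 K)) ≤
      finrank K ((tri (shI D.I j 1)).map (d1 K)) by omega
  set W := (tri (shI D.I j 1)).map (d1 K) with hW
  set s : Set (Poly K 3) := {g | ∃ k < j, g ∈ part D.I k}
  set I2 := Ideal.span s with hI2
  have hI2h : Homog I2 := Homog.span fun g ⟨k, _, hg⟩ => ⟨k, hg.2⟩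
  have hle : I2 ≤ D.I := Ideal.span_le.mpr fun g ⟨k, _, hg⟩ => hg.1
  have hprev : hq I2 (j - 1) = hq D.I (j - 1) :=
    le_antisymm (by
      have := hq_add I2 (j - 1)
      have := hq_add D.I (j - 1)
      have h : part D.I (j - 1) ≤ part I2 (j - 1) := fun p hp =>
        ⟨Ideal.subset_span ⟨j - 1, by omega, hp⟩, hp.2⟩
      have := Submodule.finrank_mono h
      omega) (hq_anti hle _)
  have hWpart : part I2 j = W := by
    apply le_antisymm
    · rintro p ⟨hp, hpj⟩
      rw [← component_self hpj]
      obtain ⟨m, q, g, rfl⟩ := Submodule.mem_span_set'.mp hp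
      rw [map_sum]
      refine Submodule.sum_mem _ fun l _ => ?_
      obtain ⟨k, hk, hgI, hgk⟩ := (g l).2
      obtain ⟨t, rfl⟩ : ∃ t, j = t + 1 + k := ⟨j - k - 1, by omega⟩
      rw [smul_eq_mul, mul_comm, component_mul hgk]
      have h1 : homogeneousComponent (t + 1) (q l) ∈ sh K (t + 1) 0 :=
        (mem_sh (by omega)).mpr (homogeneousComponent_isHomogeneous _ _)
      rw [← map_d1_eq (by omega)] at h1
      obtain ⟨v, hv, hv'⟩ := h1
      refine ⟨fun i => (g l : Poly K 3) * v i, mem_tri.mpr fun i => ⟨D.I.mul_mem_right _ hgI, ?_⟩,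
        ?_⟩
      · show _ ∈ sh K (t + 1 + k) 1
        rw [mem_sh (by omega), show t + 1 + k - 1 = k + t by omega]
        have h2 := (mem_sh (by omega)).mp (mem_tri.mp hv i)
        rw [Nat.add_sub_cancel] at h2
        exact IsHomogeneous.mul hgk h2
      · rw [← hv', d1_apply, d1_apply]
        ring
    · rintro _ ⟨v, hv, rfl⟩
      refine ⟨?_, ?_⟩
      · rw [d1_apply]
        have h : ∀ i, v i ∈ I2 := fun i => by
          have := mem_tri.mp hv i
          rw [shI_eq_part _ hj] at this
          exact Ideal.subset_span ⟨j - 1, by omega, this⟩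
        exact add_mem (add_mem (I2.mul_mem_left _ (h 0)) (I2.mul_mem_left _ (h 1)))
          (I2.mul_mem_left _ (h 2))
      · have := map_d1_le j ⟨v, tri_mono inf_le_right hv, rfl⟩
        rwa [mem_sh (Nat.zero_le _), Nat.sub_zero] at this
  -- the forms of lower degree
  set c' := (univ.filter fun i : Fin c => D.a i < j).card
  have hc' : c' ≤ c := (card_filter_le _ _).trans_eq (Fintype.card_fin c)
  have hlow : ∀ i : Fin c, (i : ℕ) < c' ↔ D.a i < j := by
    intro i
    constructor
    · intro hi
      by_contra hge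
      have h : (univ.filter fun l : Fin c => D.a l < j) ⊆ Finset.Iio i := by
        intro l hl
        rw [Finset.mem_Iio]
        by_contra hli
        have := D.mono (not_lt.mp hli)
        have := (mem_filter.mp hl).2
        omega
      have h' : c' ≤ (Finset.Iio i).card := card_le_card h
      rw [Fin.card_Iio] at h'
      omega
    · intro hi
      have h : Finset.Iic i ⊆ univ.filter fun l : Fin c => D.a l < j := fun l hl =>
        mem_filter.mpr ⟨mem_univ _, (D.mono (Finset.mem_Iic.mp hl)).trans_lt hi⟩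
      have h' : (Finset.Iic i).card ≤ c' := card_le_card h
      rw [Fin.card_Iic] at h'
      omega
  set a' : Fin c' → ℕ := fun i => D.a (Fin.castLE hc' i) with ha'
  have hlt : ∀ i : Fin c', a' i < j := fun i => (hlow _).mp i.2
  have hreg' : RegL ⊥ (List.ofFn fun i : Fin c' => D.f (Fin.castLE hc' i)) := by
    have e : List.ofFn (fun i : Fin c' => D.f (Fin.castLE hc' i)) = (List.ofFn D.f).take c' := by
      refine List.ext_getElem (by simp [hc']) fun n h1 h2 => ?_
      simp
    rw [e]
    have := D.reg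
    rw [← List.take_append_drop c' (List.ofFn D.f), regL_append] at this
    exact this.1
  have hmem' : ∀ i : Fin c', (D.f (Fin.castLE hc' i)).g ∈ I2 := fun i => by
    refine Ideal.subset_span ⟨a' i, hlt i, D.mem _, ?_⟩
    have h := (D.f (Fin.castLE hc' i)).hom
    rw [D.hk] at h
    exact h
  obtain ⟨hstep, hle2⟩ := step_pad (hc'.trans D.hc) (a := a') (fun i => D.two _)
    (fun i l hil => D.mono hil) (N := j + 1) (by omega) (fun i => by have := hlt i; omega)
    (fun i => D.f (Fin.castLE hc' i)) (fun i => D.hk _) hreg' hI2h hmem'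
    (d := j - 1) (by omega)
  have hle3 : hq I2 j ≤ (Box (pad a' (j + 1)) j).card := by
    have := (step_pad (hc'.trans D.hc) (a := a') (fun i => D.two _)
      (fun i l hil => D.mono hil) (N := j + 2) (by omega) (fun i => by have := hlt i; omega)
      (fun i => D.f (Fin.castLE hc' i)) (fun i => D.hk _) hreg' hI2h hmem'
      (d := j) (by omega)).2
    rwa [box_pad_congr (hc'.trans D.hc) (M := j + 1) (by omega) (by omega)] at this
  have hbox : Box (pad a' (j + 1)) (j - 1) = D.B (j - 1) := by
    ext e
    rw [mem_box_pad (hc'.trans D.hc) (by omega), D.mem_B]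
    refine and_congr_left fun hs => ⟨fun h i hi => ?_, fun h i hi => h (Fin.castLE hc' i) hi⟩
    by_cases hic : (i : ℕ) < c'
    · exact h ⟨i, hic⟩ hi
    · have h1 : ¬ D.a i < j := fun h1 => hic ((hlow i).mpr h1)
      have := single_le_sum (fun l _ => Nat.zero_le (e l)) (mem_univ (⟨i, hi⟩ : Fin 3))
      omega
  rw [show j - 1 + 1 = j by omega] at hstep
  -- monomials of degree `j` that are not multiples from degree `j - 1`
  set E := (degSet 3 j).filter fun u : Fin 3 →₀ ℕ =>
    ∃ e ∈ D.S, e.degree = j - 1 ∧ ∃ i, u = e + Finsupp.single i (1 : ℕ) with hE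
  have hWJ : (tri (shI D.J j 1)).map (d1 K) ≤ restrictSupport K (E : Set (Fin 3 →₀ ℕ)) := by
    rintro _ ⟨v, hv, rfl⟩
    rw [d1_apply]
    have h : ∀ i, X i * v i ∈ restrictSupport K (E : Set (Fin 3 →₀ ℕ)) := by
      intro i
      have hvi := mem_tri.mp hv i
      rw [shI_eq_part _ hj, mem_part, Setup.J, mem_monIdeal] at hvi
      rw [mem_restrictSupport_iff, support_X_mul]
      intro u hu
      obtain ⟨e, he, rfl⟩ := Finset.mem_map.mp hu
      have hed : e.degree = j - 1 := by
        have h1 : v i ∈ Forms K 3 (j - 1) := hvi.2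
        rw [forms_eq_restrictSupport, mem_restrictSupport_iff] at h1
        exact mem_degSet.mp (h1 he)
      refine mem_filter.mpr ⟨mem_degSet.mpr ?_, e, hvi.1 he, hed, i, add_comm _ _⟩
      rw [addLeftEmbedding_apply, map_add, Finsupp.degree_single, hed]
      omega
    exact add_mem (add_mem (h 0) (h 1)) (h 2)
  have hEc : E.card + hq I2 j ≤ (degSet 3 j).card := by
    have hG := card_lrk_lt hle3
    have hinj : ((Box (pad a' (j + 1)) j).filter fun u =>
        lrk (pad a' (j + 1)) j u < hq I2 j).card ≤ ((degSet 3 j) \ E).card := by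
      refine card_le_card_of_injOn (fun u => Finsupp.equivFunOnFinite.symm u) (fun u hu => ?_)
        fun u _ w _ h => Finsupp.equivFunOnFinite.symm.injective h
      simp only [mem_coe, mem_filter] at hu
      obtain ⟨hub, hlt'⟩ := hu
      obtain ⟨hout, hsum⟩ := (mem_box_pad (hc'.trans D.hc) (by omega)).mp hub
      simp only [mem_coe, mem_sdiff]
      refine ⟨mem_degSet.mpr (by rw [degree_eq_sum_fun]; simpa using hsum), fun hmem => ?_⟩
      obtain ⟨-, e, heS, hed, i, hei⟩ := mem_filter.mp hmem
      have hu : u = ⇑e + Pi.single i 1 := by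
        rw [← coe_add_single, ← hei]
        simp
      have heb : ⇑e ∈ Box (pad a' (j + 1)) (j - 1) :=
        (mem_box_pad (hc'.trans D.hc) (by omega)).mpr
          ⟨fun l h => lt_of_le_of_lt (by rw [hu]; simp) (hout l h),
            hed ▸ (degree_eq_sum_fun e).symm⟩
      have hB := hbox ▸ heb
      have h5 := hstep _ heb i
        (by rw [show j - 1 + 1 = j by omega]; exact hu ▸ hub) (by
        rw [hprev, lrk_congr (hbox.trans (D.box_eq (show j - 1 < big D.a (j - 1) by have := lt_big D.a (j - 1); omega)).symm),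
          ← hed]
        exact heS (D.mem_B.mp hB).1)
      rw [← hu, show j - 1 + 1 = j by omega] at h5
      omega
    rw [hG] at hinj
    have := card_sdiff_of_subset (show E ⊆ degSet 3 j from filter_subset _ _)
    have := card_le_card (show E ⊆ degSet 3 j from filter_subset _ _)
    omega
  haveI : FiniteDimensional K (restrictSupport K (E : Set (Fin 3 →₀ ℕ))) :=
    Module.Finite.of_basis (basisRestrictSupport K (E : Set (Fin 3 →₀ ℕ)))
  have h6 := Submodule.finrank_mono hWJ
  rw [finrank_restrictSupport] at h6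
  have h7 := hq_add I2 j
  rw [hWpart, forms_eq_restrictSupport, finrank_restrictSupport] at h7
  omega

theorem Setup.betti_le : ∀ p j, betti D.I p j ≤ betti D.J p j := by
  intro p j
  have hs := fun k => finrank_shI_congr (fun d => D.hq_J d) j k
  match p with
  | 0 => exact (betti_zero_congr (fun d => (D.hq_J d).symm) j).le
  | 1 => exact D.betti_one_le j
  | 2 =>
    have := euler D.I j
    have := euler D.J j
    have := hs 0
    have := hs 1
    have := hs 2
    have := hs 3
    have := betti_zero_congr (fun d => (D.hq_J d).symm) j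
    have := D.betti_one_le j
    have := D.betti_three j
    omega
  | 3 => exact D.betti_three j
  | p + 4 => simp [betti]

end

end Vale.Agent.P200.Lpp
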