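import Vale.Agent.P200.Mono

/-!
# The lex-plus-powers exponents in three variables
-/

namespace Vale.Agent.P200.Lpp

open MvPolynomial Module

open scoped Classical

noncomputable section

variable {c : ℕ}

/-- The monomial is divisible by one of the powers. -/
def InPowers (hc : c ≤ 3) (a : Fin c → ℕ) (e : Fin 3 →₀ ℕ) : Prop :=
  ∃ i : Fin c, a i ≤ e (Fin.castLE hc i)

/-- The number of monomials of degree `d` divisible by one of the powers. -/
def powersCount (hc : c ≤ 3) (a : Fin c → ℕ) (d : ℕ) : ℕ :=
  ((degSet 3 d).filter fun g => InPowers hc a g).card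

/-- The number of monomials outside the powers of the same degree and lexicographically greater. -/
def aboveCount (hc : c ≤ 3) (a : Fin c → ℕ) (e : Fin 3 →₀ ℕ) : ℕ :=
  ((degSet 3 e.degree).filter fun g : Fin 3 →₀ ℕ =>
    ¬InPowers hc a g ∧ toLex (⇑e) < toLex (⇑g)).card

/-- `dim I_d - dim P_d`. -/
def excess {K : Type} [Field K] (hc : c ≤ 3) (a : Fin c → ℕ) (I : Ideal (Poly K 3)) (d : ℕ) : ℕ :=
  finrank K (part I d) - powersCount hc a d

/-- The exponents of the lex-plus-powers space of `I`: the powers, and in each degree `d` the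
`dim I_d - dim P_d` greatest monomials outside them. -/
def lexPlus {K : Type} [Field K] (hc : c ≤ 3) (a : Fin c → ℕ) (I : Ideal (Poly K 3)) :
    Set (Fin 3 →₀ ℕ) :=
  {e | InPowers hc a e ∨ aboveCount hc a e < excess hc a I e.degree}

/-- The lex-plus-powers ideal: the span of the monomials with those exponents. -/
def lexPlusIdeal {K : Type} [Field K] (hc : c ≤ 3) (a : Fin c → ℕ) (I : Ideal (Poly K 3)) :
    Ideal (Poly K 3) :=
  Ideal.span ((fun e => monomial e (1 : K)) '' lexPlus hc a I)

end

end Vale.Agent.P200.Lpp
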