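import Vale.Agent.P200.Ext
import Vale.Agent.P200.Chain.Tower

/-!
# At most three forms in three variables, padded by high powers
-/

namespace Vale.Agent.P200.Lpp

open MvPolynomial Module Finset Vale.Agent.P200.Chain

open scoped Classical

noncomputable section

variable {K : Type} [Field K] {c : ℕ}

/-- The degrees, followed by copies of `N`. -/
def pad (a : Fin c → ℕ) (N : ℕ) : Fin 3 → ℕ :=
  fun i => if h : (i : ℕ) < c then a ⟨i, h⟩ else N

/-- Exponents outside the pure powers. -/
def OutP (a : Fin c → ℕ) (e : Fin 3 → ℕ) : Prop :=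
  ∀ (i : Fin c) (h : (i : ℕ) < 3), e ⟨i, h⟩ < a i

theorem mem_box_pad (hc : c ≤ 3) {a : Fin c → ℕ} {N d : ℕ} (hd : d < N) {e : Fin 3 → ℕ} :
    e ∈ Box (pad a N) d ↔ OutP a e ∧ ∑ i, e i = d := by
  rw [mem_box]
  refine and_congr_left fun hs => ⟨fun h i hi => ?_, fun h i => ?_⟩
  · simpa [pad] using h ⟨i, hi⟩
  · by_cases hi : (i : ℕ) < c
    · simpa [pad, hi] using h ⟨i, hi⟩ i.2
    · have := single_le_sum (fun l _ => Nat.zero_le (e l)) (mem_univ i)
      simp only [pad, hi, dif_neg, not_false_eq_true]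
      omega

theorem lrk_congr {a b : Fin 3 → ℕ} {d : ℕ} (h : Box a d = Box b d) (e : Fin 3 → ℕ) :
    lrk a d e = lrk b d e := by
  simp only [lrk, h]

theorem box_pad_congr (hc : c ≤ 3) {a : Fin c → ℕ} {N M d : ℕ} (hN : d < N) (hM : d < M) :
    Box (pad a N) d = Box (pad a M) d := by
  ext e
  rw [mem_box_pad hc hN, mem_box_pad hc hM]

theorem hq_idl_of_lt {e : ℕ} : ∀ {L : List (GForm K 3)} {I : Ideal (Poly K 3)}, Homog I →
    (∀ g ∈ L, e < g.k) → hq (idl I L) e = hq I e := by
  intro L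
  induction L with
  | nil => intro I _ _; rfl
  | cons g L ih =>
    intro I hI h
    rw [idl, ih (hI.sup (Homog.span_singleton g.hom)) fun x hx => h x (List.mem_cons_of_mem _ hx),
      hq_sup_of_lt hI g.hom (h g List.mem_cons_self)]

theorem exists_pad [Infinite K] {N : ℕ} (hN : 0 < N) : ∀ (m : ℕ) (L : List (GForm K 3)),
    L.length + m = 3 → RegL ⊥ L →
      ∃ L', L'.map GForm.k = List.replicate m N ∧ RegL ⊥ (L ++ L') := by
  intro m
  induction m with
  | zero => exact fun L _ h => ⟨[], rfl, by simpa using h⟩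
  | succ m ih =>
    intro L hlen hreg
    obtain ⟨l, hl, hl0, hlz⟩ := exists_nzd_linear (ι := Unit) (fun _ => idl ⊥ L)
      (fun _ => Homog.bot.idl L)
      (fun _ e => noSoc_regL L.length 3 L rfl (by omega) hreg e (by omega)) (by omega)
    let g : GForm K 3 := ⟨l ^ N, N, isHomogeneous_linear_pow hl N, hN⟩
    have hg : NZD (idl ⊥ L) g.g := by
      have hpow : ∀ j, NZD (idl ⊥ L) (l ^ j) := by
        intro j
        induction j with
        | zero => intro p hp; simpa using hp
        | succ j ih => intro p hp; exact ih _ (hlz () _ (by rwa [pow_succ', mul_assoc] at hp))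
      exact hpow N
    obtain ⟨L', hk, hr⟩ := ih (L ++ [g]) (by simp; omega)
      ((regL_append _ _ _).mpr ⟨hreg, hg, trivial⟩)
    exact ⟨g :: L', by simp [hk, List.replicate_succ, g], by simpa using hr⟩

theorem ofFn_pad (hc : c ≤ 3) (a : Fin c → ℕ) (N : ℕ) :
    List.ofFn (pad a N) = List.ofFn a ++ List.replicate (3 - c) N := by
  interval_cases c <;> simp [List.ofFn_succ, pad, List.replicate_succ]

/-- The segment step and the box bound below the padding degree. -/
theorem step_pad (hc : c ≤ 3) {a : Fin c → ℕ} (h2 : ∀ i, 2 ≤ a i) (hm : Monotone a) {N : ℕ}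
    (hN2 : 2 ≤ N) (hN : ∀ i, a i ≤ N) (f : Fin c → GForm K 3) (hk : ∀ i, (f i).k = a i)
    (hreg : RegL ⊥ (List.ofFn f)) {I : Ideal (Poly K 3)} (hI : Homog I) (hmem : ∀ i, (f i).g ∈ I)
    {d : ℕ} (hd : d + 1 < N) :
    Step (pad a N) d (hq I d) (hq I (d + 1)) ∧ hq I d ≤ (Box (pad a N) d).card := by
  set K' := AlgebraicClosure K
  have hr := regL_map_bc K' Homog.bot hreg
  rw [Ideal.map_bot] at hr
  set L := (List.ofFn f).map (GForm.toExt K') with hL
  have hLk : L.map GForm.k = List.ofFn a := by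
    rw [hL, List.map_map, List.map_ofFn]
    exact congrArg List.ofFn (funext fun i => hk i)
  obtain ⟨L', hk', hr'⟩ := exists_pad (N := N) (by omega) (3 - c) L
    (by simp [hL]; omega) hr
  set J := idl (I.map (bc K')) L' with hJ
  have hJh : Homog J := (hI.map_bc K').idl _
  have hJq : ∀ e, e < N → hq J e = hq I e := fun e he => by
    rw [hJ, hq_idl_of_lt (hI.map_bc K') fun g hg => ?_, hq_map_bc K' hI]
    have : g.k ∈ L'.map GForm.k := List.mem_map_of_mem hg
    rw [hk', List.mem_replicate] at this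
    omega
  have hJm : ∀ g ∈ L ++ L', g.g ∈ J := fun g hg => by
    rcases List.mem_append.mp hg with hg | hg
    · obtain ⟨x, hx, rfl⟩ := List.mem_map.mp hg
      obtain ⟨i, rfl⟩ := List.mem_ofFn.mp hx
      exact le_idl _ _ (Ideal.mem_map_of_mem _ (hmem i))
    · exact mem_idl hg
  have hkk : (L ++ L').map GForm.k = List.ofFn (pad a N) := by
    rw [List.map_append, hLk, hk', ofFn_pad hc]
  have hm' : Monotone (pad a N) := by
    intro i l hil
    by_cases hl : (l : ℕ) < c
    · have hi : (i : ℕ) < c := lt_of_le_of_lt hil hl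
      simpa [pad, hi, hl] using hm (show (⟨i, hi⟩ : Fin c) ≤ ⟨l, hl⟩ from hil)
    · by_cases hi : (i : ℕ) < c
      · simpa [pad, hi, hl] using hN ⟨i, hi⟩
      · simp [pad, hi, hl]
  have h0 : 2 ≤ pad a N 0 := by
    unfold pad
    split_ifs
    · exact h2 _
    · exact hN2
  have hlex : LexM K' (pad a N) := lexM_three h0 (hm' (by decide)) (hm' (by decide))
  rw [← hJq d (by omega), ← hJq (d + 1) hd]
  exact ⟨hlex _ hkk hr' J hJh hJm d, hq_le_card hkk hr' hJm d⟩

end

end Vale.Agent.P200.Lpp
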